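import Vale.Agent.P293.Main

/-! A stable coordinate of `ℂ^[5]` that is not a coordinate. -/

open MvPolynomial

namespace Vale.Agent.Results.P295.Counterexample

open Vale.Agent.P293 in
theorem result : ∃ f : MvPolynomial (Fin 5) ℂ,
    (∃ e : MvPolynomial (Fin 6) ℂ ≃ₐ[ℂ] MvPolynomial (Fin 6) ℂ,
      e (rename Fin.castSucc f) = X 0) ∧
    ¬ ∃ e : MvPolynomial (Fin 5) ℂ ≃ₐ[ℂ] MvPolynomial (Fin 5) ℂ, e f = X 0 := by
  refine ⟨H5, ?_, fun ⟨e, he⟩ => ?_⟩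
  · obtain ⟨e, he⟩ := stable 1
    exact ⟨e, by rw [← he, H5, map_HH]; simp⟩
  · obtain ⟨π, hπ, hk⟩ := killer e he
    exact nonpoly π hπ hk

end Vale.Agent.Results.P295.Counterexample
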